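import Vale.Agent.P352X.R.IB.Dt
import Vale.Agent.P352Z.P352X.R.D1.ThA
import Vale.Agent.P352Z.P352X.R.GRP

open Vale.Agent.P352G

/-!
# P352X, row IB: norms of `Θ(g φ)`, `Tht(γ, φ)` and of their difference (helper83)
-/

set_option linter.all false

open MeasureTheory Filter Topology Set
open scoped SchwartzMap ComplexConjugate ContDiff Real

namespace Vale.Agent.P352X.Ib

open Vale.Agent.P352 Vale.Agent.P352.GF Vale.Agent.P352.BW Vale.Agent.P352.H246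
open Vale.Agent.P352.H496 Vale.Agent.P352.H755
open UniformSpace (Completion)
open Complex (I exp)
open Th (tc mF)

noncomputable section

variable {D : Type*} [NormedAddCommGroup D] [InnerProductSpace ℂ D] [GrD D] {c : CtxZ D}
  {ell : (V → ℂ) → Completion D} {c0 : ℝ}

variable (h : EllZ c ell c0)
include h

lemma ell_leZ {ψ : V → ℂ} (hψ : MemLp ψ 2 mF) {b : P3 → ℝ} (hb : IntegrableOn b Pp) {C : ℝ}
    (e : ∀ k : P3, 0 < k.1 → ∫ t in Ioi (0 : ℝ), ‖ψ (pc k t)‖ ^ 2 ≤ b k * C) :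
    ‖(-3 : ℂ) • ell ψ‖ ^ 2 ≤ 9 * c0 * (∫ k in Pp, b k) * C := by
  rw [norm_smul, mul_pow, Th.ell_sqZ h hψ, integral_Fc (Th.sq_int hψ), mul_assoc, mul_assoc,
    ← integral_mul_const]
  refine mul_le_mul (by norm_num) (mul_le_mul_of_nonneg_left (integral_mono_of_nonneg
    (.of_forall fun _ => integral_nonneg fun _ => sq_nonneg _) (hb.mul_const C)
    ((ae_restrict_mem meas_Pp).mono e)) h.nonneg) (mul_nonneg h.nonneg (integral_nonneg fun _ =>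
      integral_nonneg fun _ => sq_nonneg _)) (by norm_num)

lemma tt_sqZ {γ : P3 → ℂ} (hγ : MemLp γ 2 m3) (φ : 𝓢(ℝ, ℂ)) :
    ‖Ttc ell γ φ‖ ^ 2 ≤ 9 * c0 * (∫ k, ‖γ k‖ ^ 2 ∂m3) * (8 * π * q2 (deriv φ)) := by
  rw [integral_m3]
  refine ell_leZ h (mem_tt hγ φ) (int_m3 hγ) fun k hk => ?_
  have := mul_le_mul_of_nonneg_left (shift_le φ le_rfl)
    (show 0 ≤ 4 * (k.1 ^ 2 * ‖γ k‖ ^ 2) by positivity)
  rw [← integral_const_mul] at this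
  refine (le_of_eq (integral_congr_ae (.of_forall fun t => ?_))).trans (this.trans_eq (by ring))
  simp only [be_pc, pm_pc, mu_pc' _ hk.ne']
  simp [mu_pc _ hk.ne', mul_pow]
  ring

lemma th_eqZ (g : 𝓢(P3, ℂ)) (φ : 𝓢(ℝ, ℂ)) :
    c.Th (pf g φ) = (-3 : ℂ) • ell fun p => (mu p : ℝ) * ft (pf g φ) p := h.th _ (test_pf g φ)

lemma th_sqZ (g : 𝓢(P3, ℂ)) (φ : 𝓢(ℝ, ℂ)) :
    ‖c.Th (pf g φ)‖ ^ 2 ≤ 9 * c0 * (∫ k, ‖ft3 g k‖ ^ 2 ∂m3) * (8 * π * q2 (deriv φ)) := by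
  rw [integral_m3, th_eqZ h]
  refine ell_leZ h (memLp_mu_ft (test_pf g φ) _) (int_m3 (memLp_ft3_m3 g)) fun k hk => ?_
  have := mul_le_mul_of_nonneg_left (shift_le φ (Th.sh_nonneg hk))
    (show 0 ≤ 4 * (k.1 ^ 2 * ‖ft3 g k‖ ^ 2) by positivity)
  rw [← integral_const_mul] at this
  refine (le_of_eq (integral_congr_ae (.of_forall fun t => ?_))).trans (this.trans_eq (by ring))
  simp [ft_pf, mu_pc _ hk.ne', mul_pow, Th.sh]
  ring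

lemma dt_sqZ (g : 𝓢(P3, ℂ)) : ∃ C : ℝ, 0 ≤ C ∧ ∀ φ : 𝓢(ℝ, ℂ),
    ‖c.Th (pf g φ) - Ttc ell (ft3 g) φ‖ ^ 2 ≤
      C * (q2 (fun t : ℝ => (t : ℂ) * deriv φ t) + q2 φ) := by
  have i := int_sq (Ap.sw_rmul (u := fun k : P3 => d2 k.2 k.2) (by fun_prop) (sw_ft3 g))
  refine ⟨9 * c0 * (∫ k in Pp, ‖(d2 k.2 k.2 : ℂ) * ft3 g k‖ ^ 2) * (4 * π), mul_nonneg (mul_nonneg
    (mul_nonneg (by norm_num) h.nonneg) (integral_nonneg fun _ => sq_nonneg _)) (by positivity),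
    fun φ => ?_⟩
  have m1 := memLp_mu_ft (test_pf g φ) Fc
  have m2 := mem_tt (memLp_ft3_m3 g) φ
  rw [th_eqZ h, Ttc, ← smul_sub, ← Th.ell_subZ h m1 m2, mul_assoc _ (4 * π)]
  refine ell_leZ h (m1.sub m2) i.integrableOn fun k hk => ?_
  have := mul_le_mul_of_nonneg_left (diff_le φ (Th.sh_nonneg hk))
    (show 0 ≤ 4 * (k.1 ^ 2 * ‖ft3 g k‖ ^ 2) by positivity)
  rw [← integral_const_mul] at this
  refine (le_of_eq (integral_congr_ae (.of_forall fun t => ?_))).trans (this.trans_eq ?_)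
  · simp only [Pi.sub_apply, be_pc, pm_pc, mu_pc' _ hk.ne', ft_pf, al_pc, mul_assoc, ← mul_sub]
    simp [mu_pc _ hk.ne', mul_pow, Th.sh]
    ring
  · simp only [Th.sh, norm_mul, mul_pow, Complex.norm_real, Real.norm_eq_abs, sq_abs]
    field_simp
    ring

/-- `φ ↦ Tht(γ, φ)` -/
def TtLZ {γ : P3 → ℂ} (hγ : MemLp γ 2 m3) : 𝓢(ℝ, ℂ) →L[ℂ] Completion D :=
  let L : 𝓢(ℝ, ℂ) →ₗ[ℂ] Completion D :=
    { toFun := fun φ => Ttc ell γ φ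
      map_add' := fun φ ψ => by
        rw [Ttc, Ttc, Ttc, ← smul_add, ← Th.ell_addZ h (mem_tt hγ φ) (mem_tt hγ ψ)]
        simp only [← mul_add, ← ft1_add φ.integrable ψ.integrable]
        rfl
      map_smul' := fun a φ => by
        rw [Ttc, Ttc, RingHom.id_apply, smul_comm a, ← Th.ell_smulZ h a (mem_tt hγ φ)]
        simp only [mul_left_comm a, ← ft1_mul]
        rfl }
  ⟨L, continuous_of_continuousAt_zero L (by
    rw [ContinuousAt, map_zero, tendsto_zero_iff_norm_tendsto_zero]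
    have := ((((cont_q2.comp dS.continuous).const_mul (8 * π)).const_mul
      (9 * c0 * ∫ k, ‖γ k‖ ^ 2 ∂m3)).sqrt.tendsto 0)
    refine squeeze_zero (fun _ => norm_nonneg _) (fun φ => Real.le_sqrt_of_sq_le (tt_sqZ h hγ φ))
      (this.trans_eq ?_)
    simp [q2])⟩

lemma TtL_applyZ {γ : P3 → ℂ} (hγ : MemLp γ 2 m3) (φ : 𝓢(ℝ, ℂ)) : TtLZ h hγ φ = Ttc ell γ φ := rfl

lemma TtL_S1Z {γ : P3 → ℂ} (hγ : MemLp γ 2 m3) {φ : ℝ → ℝ} (hφ : Tst φ) :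
    TtLZ h hγ (S1 φ) = Tht ell γ φ := by rw [TtL_applyZ, S1_coe hφ, Tht_eq]

omit h

variable (c) in
/-- `f ↦ Θ(f) Ω` -/
def thCZ : Sch →L[ℂ] Completion D :=
  Completion.toComplL ∘L ∑ m, (eta m : ℂ) • Grp.fC (Grp.T_fld c.hT m m) c.Q.vac

lemma thC_applyZ (f : Sch) : thCZ c f = c.Th (ev f) := by
  simp only [thCZ, ContinuousLinearMap.comp_apply, ContinuousLinearMap.sum_apply,
    ContinuousLinearMap.smul_apply]
  rfl

lemma thC_schZ {f : Fn} (hf : IsTest f) : thCZ c (sch f) = c.Th f := by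
  rw [thC_applyZ, Ap.ev_sch hf]

lemma th_addZ {f g : Fn} (hf : IsTest f) (hg : IsTest g) :
    c.Th (fun z => f z + g z) = c.Th f + c.Th g := by
  rw [← thC_schZ (Ap.sw_add hf hg), Ap.sch_add hf hg, map_add, thC_schZ hf, thC_schZ hg]

lemma th_smulZ (a : ℂ) {f : Fn} (hf : IsTest f) : c.Th (fun z => a * f z) = a • c.Th f := by
  rw [← thC_schZ (Ap.sw_cmul a hf), Ap.sch_cmul a hf, map_smul, thC_schZ hf]

variable (c) in
/-- `φ ↦ Θ(g φ) Ω` -/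
def ThLZ (g : P3 → ℝ) : 𝓢(ℝ, ℂ) →L[ℂ] Completion D := thCZ c ∘L Api4.tenE plE (sch (cx g))

lemma ThL_S1Z {g : P3 → ℝ} {φ : ℝ → ℝ} (hg : Tst g) (hφ : Tst φ) :
    ThLZ c g (S1 φ) = c.Th (pr g φ) := by
  rw [pr_sch hg hφ]
  exact thC_applyZ _

/-! ### dilates -/

include h

/-- `|Θ(g χ_s) - Tht(g^, χ_s)| ≤ C sqrt s` -/
theorem dt_dilZ {g : P3 → ℝ} {χ : ℝ → ℝ} (hg : Tst g) (hχ : Tst χ) : ∃ C : ℝ, 0 ≤ C ∧ ∀ s, 0 < s →
    ‖c.Th (pr g (dil s χ)) - Tht ell (ft3 (cx g)) (dil s χ)‖ ≤ C * √s := by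
  obtain ⟨C, h0, hC⟩ := dt_sqZ h (sch (cx g))
  refine ⟨√(C * (q2 (fun t : ℝ => (t : ℂ) * deriv (cx χ) t) + q2 (cx χ))), Real.sqrt_nonneg _,
    fun s hs => ?_⟩
  have := hC (S1 (dil s χ))
  rw [← pr_sch hg (tst_dil hχ hs), S1_coe (tst_dil hχ hs), Api4.coe_sch (Api4.dc_cx hg),
    ← Tht_eq] at this
  rw [← Real.sqrt_mul' _ hs.le]
  refine Real.le_sqrt_of_sq_le (this.trans_eq ?_)
  have e1 := q2_dil hs 1 fun t : ℝ => (t : ℂ) * deriv (cx χ) t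
  have e2 := q2_dil hs 1 (cx χ)
  simp only [Complex.ofReal_one, one_mul, one_pow] at e1 e2
  rw [mul_assoc, mul_comm _ s, mul_add s, ← e1, ← e2, deriv_dil]
  congr 3
  funext t
  push_cast
  ring

/-- `|Θ(g χ_s)| ≤ C / sqrt s` -/
theorem th_dilZ {g : P3 → ℝ} {χ : ℝ → ℝ} (hg : Tst g) (hχ : Tst χ) : ∃ C : ℝ, 0 ≤ C ∧ ∀ s, 0 < s →
    ‖c.Th (pr g (dil s χ))‖ ≤ C / √s := by
  refine ⟨√(9 * c0 * (∫ k, ‖ft3 (cx g) k‖ ^ 2 ∂m3) * (8 * π * q2 (deriv (cx χ)))),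
    Real.sqrt_nonneg _, fun s hs => ?_⟩
  have := th_sqZ h (sch (cx g)) (S1 (dil s χ))
  rw [← pr_sch hg (tst_dil hχ hs), S1_coe (tst_dil hχ hs), Api4.coe_sch (Api4.dc_cx hg), deriv_dil,
    q2_dil hs] at this
  rw [← Real.sqrt_div' _ hs.le]
  refine Real.le_sqrt_of_sq_le (this.trans_eq ?_)
  field_simp

/-- `|Θ(g t χ_s)| ≤ C sqrt s` -/
theorem th_tdilZ {g : P3 → ℝ} {χ : ℝ → ℝ} (hg : Tst g) (hχ : Tst χ) : ∃ C : ℝ, 0 ≤ C ∧ ∀ s, 0 < s →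
    ‖c.Th (pr g fun t => t * dil s χ t)‖ ≤ C * √s := by
  have t : Tst fun t => t * χ t := Ap.cs_mul_l contDiff_id hχ
  obtain ⟨C, h0, hC⟩ := th_dilZ h hg t
  refine ⟨C, h0, fun s hs => ?_⟩
  have e : (pr g fun t => t * dil s χ t) = fun z => (s : ℂ) * pr g (dil s fun t => t * χ t) z := by
    funext z
    simp only [pr, dil, ← Complex.ofReal_mul]
    congr 1
    field_simp
  rw [e, th_smulZ _ (test_pr hg (tst_dil t hs)), norm_smul, Complex.norm_real,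
    Real.norm_of_nonneg hs.le]
  refine (mul_le_mul_of_nonneg_left (hC s hs) hs.le).trans_eq ?_
  rw [mul_div_left_comm, Real.div_sqrt]

end

end Vale.Agent.P352X.Ib
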