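import Vale.Agent.P352X.R.IB.K0
import Vale.Agent.P352Z.P352X.R.IB.Cell

open Vale.Agent.P352G

/-!
# P352X, row IB: the part `K0` of the plane form (helper83)
-/

set_option linter.all false

open MeasureTheory Filter Topology Set
open scoped SchwartzMap ComplexConjugate ContDiff Real

namespace Vale.Agent.P352X.Ib

open Vale.Agent.P352 Vale.Agent.P352.GF Vale.Agent.P352.BW Vale.Agent.P352.H246
open Vale.Agent.P352.H496 Vale.Agent.P352.H755
open UniformSpace (Completion)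
open Complex (I exp)

noncomputable section

variable {D : Type*} [NormedAddCommGroup D] [InnerProductSpace ℂ D] [GrD D] {c : CtxZ D} {f u v : Fn}
  {g g' : P3 → ℝ} {χ φ φ' : ℝ → ℝ}

lemma th_McZ (i : Fin 2) (hf : IsTest f) : c.Th (Mc i f) = c.Th (Xc i (dv va f)) + c.Th (Nc i f) :=
  th_addZ (test_Xc i (Ap.test_dv va hf)) (test_Nc i hf)

lemma gn_PZ (E : GENZ c) (hf : IsTest f) : Gn (Pa c.Q) (c.Th f) (I • c.Th (dv va f)) := E.uth va f hf

lemma mpZ (E : GENZ c) (i : Fin 2) (hf : IsTest f) :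
    gen (Mi c.Q i) (c.Th f) = gen (Pa c.Q) (c.Th (Xc i f)) + I • c.Th (Nc i f) := by
  rw [(E.mith i f hf).gen_eq, (gn_PZ E (test_Xc i hf)).gen_eq, th_McZ i hf, da_Xc i hf, smul_add]

/-- `K0` on derivatives along `al` -/
theorem gn_K0Z (G : GRPZ c) (E : GENZ c) (T : KTZ c) (hf : IsTest f) :
    Gn c.S0 (c.Th (dv va f)) (∑ i, gen (Mi c.Q i) (c.Th (Mc i f))) := by
  have t := Ap.test_dv va hf
  have m := fun i {f} (hf : IsTest f) => E.mith i f hf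
  refine T.k0 _ _ (fun i => ⟨(m i t).dm, (m i t).gen_eq ▸ (m i (Ap.test_Mc i t)).dm.smul I⟩) ?_
    (Gn.sum _ fun i _ => ?_)
  · simp only [inner_sum, fun i => (m i (Ap.test_Mc i hf)).gen_eq, inner_smul_right,
      fun i => th_perpZ G (Ap.test_Mc i (Ap.test_Mc i hf)), mul_zero, Finset.sum_const_zero]
  · rw [(m i (Ap.test_Mc i hf)).gen_eq, (m i t).gen_eq, ((m i (Ap.test_Mc i t)).smul I).gen_eq,
      ← da_Mc i hf, ← da_Mc i (Ap.test_Mc i hf)]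
    exact (gn_PZ E (Ap.test_Mc i (Ap.test_Mc i hf))).smul I

lemma PF_eqZ (hu : bar u = u) (v : Fn) : c.PF u v = inner ℂ (c.Th u) (gen c.SK (c.Th v)) -
    ∑ i, (inner ℂ (c.Th (Xc i u)) (gen (Mi c.Q i) (c.Th v)) +
      inner ℂ (c.Th u) (gen (Mi c.Q i) (c.Th (Xc i v)))) +
    ∑ i, inner ℂ (c.Th (Xc i u)) (gen (Pa c.Q) (c.Th (Xc i v))) := by
  simp only [CtxZ.PF, Ap.bar_rmul, hu]
  rfl

/-- **The part `K0` of the plane form.** -/
theorem pf_K0Z (G : GRPZ c) (E : GENZ c) (T : KTZ c) (hu : IsTest u) (hb : bar u = u) (hf : IsTest f)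
    (hd : Dm c.SK (c.Th (dv va f))) : c.PF u (dv va f) - inner ℂ (c.Th u) (gen c.Sk (c.Th (dv va f))) =
      -I * ∑ i, inner ℂ (c.Th (Nc i u)) (c.Th (Nc i f)) := by
  have t := Ap.test_dv va hf
  have m := fun i {f} (hf : IsTest f) => (E.mith i f hf).dm
  rw [PF_eqZ hb, (T.split _ hd).1, (gn_K0Z G E T hf).gen_eq, inner_add_right, inner_sum,
    Finset.mul_sum]
  have e : ∀ i, inner ℂ (c.Th u) (gen (Mi c.Q i) (c.Th (Mc i f))) -
      (inner ℂ (c.Th (Xc i u)) (gen (Mi c.Q i) (c.Th (dv va f))) +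
        inner ℂ (c.Th u) (gen (Mi c.Q i) (c.Th (Xc i (dv va f))))) +
      inner ℂ (c.Th (Xc i u)) (gen (Pa c.Q) (c.Th (Xc i (dv va f)))) =
      -I * inner ℂ (c.Th (Nc i u)) (c.Th (Nc i f)) := fun i => by
    rw [th_McZ i hf, gen_add (m i (test_Xc i t)) (m i (test_Nc i hf)), inner_add_right,
      (G.ugM i).symm (m i hu).gn (m i (test_Nc i hf)).gn, mpZ E i hu, mpZ E i t, ← da_Nc i hf,
      inner_add_right, inner_add_left, G.ugPa.symm (gn_PZ E (test_Xc i hu)).dm.gn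
        (gn_PZ E (test_Nc i hf)), inner_smul_left, Complex.conj_I]
    ring
  simp only [← e, Finset.sum_add_distrib, Finset.sum_sub_distrib]
  ring

theorem pf_symmZ (G : GRPZ c) (E : GENZ c) (hu : IsTest u) (hb : bar u = u) (hv : IsTest v)
    (hb' : bar v = v) (du : Dm c.SK (c.Th u)) (dw : Dm c.SK (c.Th v)) :
    conj (c.PF u v) = c.PF v u := by
  have m := fun i {f} (hf : IsTest f) => (E.mith i f hf).dm
  simp only [PF_eqZ hb, PF_eqZ hb', map_add, map_sub, map_sum, sym_inner c.ugK du dw,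
    fun i => sym_inner (G.ugM i) (m i (test_Xc i hu)) (m i hv),
    fun i => sym_inner (G.ugM i) (m i hu) (m i (test_Xc i hv)),
    fun i => sym_inner G.ugPa (gn_PZ E (test_Xc i hu)).dm (gn_PZ E (test_Xc i hv)).dm]
  simp only [add_comm (inner ℂ (c.Th v) _)]

/-! ### products -/

variable (c) in
/-- the remainder -/
def RmZ (g : P3 → ℝ) (φ : ℝ → ℝ) (g' : P3 → ℝ) (φ' : ℝ → ℝ) : ℂ :=
  c.PF (pr g φ) (pr g' φ') - inner ℂ (c.Th (pr g φ)) (gen c.Sk (c.Th (pr g' φ')))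

variable (t : T2Z c)
include t

lemma dm_kZ (hg : Tst g) (hφ : Sd φ) : Dm c.Sk (c.Th (pr g φ)) :=
  ((t.kt.dom _).1 (dm_prZ t.grp t.kd hg hφ)).1

lemma PF_conjZ (hg : Tst g) (hφ : Sd φ) (hg' : Tst g') (hφ' : Sd φ') :
    conj (c.PF (pr g φ) (pr g' φ')) = c.PF (pr g' φ') (pr g φ) :=
  pf_symmZ t.grp t.gen (test_pr hg hφ.1) (Far.bar_pr _ _) (test_pr hg' hφ'.1) (Far.bar_pr _ _)
    (dm_prZ t.grp t.kd hg hφ) (dm_prZ t.grp t.kd hg' hφ')

lemma Rm_conjZ (hg : Tst g) (hφ : Sd φ) (hg' : Tst g') (hφ' : Sd φ') :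
    conj (RmZ c g φ g' φ') = RmZ c g' φ' g φ := by
  rw [RmZ, map_sub, PF_conjZ t hg hφ hg' hφ', sym_inner t.kt.ugk (dm_kZ t hg hφ) (dm_kZ t hg' hφ'), RmZ]

theorem Rm_leZ (hg : Tst g) (hφ : Tst φ) (hg' : Tst g') (hφ' : Sd φ') :
    ‖RmZ c g φ (Dx (1, 0) g') φ'‖ ≤
      ∑ i, ‖c.Th (pr (Dx (0, e2 i) g) (tm φ))‖ * ‖c.Th (pr (Dx (0, e2 i) g') (tm φ'))‖ := by
  have d := dm_prZ t.grp t.kd (tst_Dx (1, 0) hg') hφ'
  rw [RmZ]
  rw [← da_pr hg' hφ'.1] at d ⊢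
  rw [pf_K0Z t.grp t.gen t.kt (test_pr hg hφ) (Far.bar_pr _ _) (test_pr hg' hφ'.1) d, norm_mul,
    norm_neg, Complex.norm_I, one_mul]
  simp only [fun i => Nc_pr i hg hφ, fun i => Nc_pr i hg' hφ'.1]
  exact (norm_sum_le _ _).trans (Finset.sum_le_sum fun i _ => norm_inner_le_norm _ _)

end

end Vale.Agent.P352X.Ib
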