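import Vale.Agent.P352X.R.IB.Est
import Vale.Agent.P352Z.P352X.R.IB.K0

open Vale.Agent.P352G

/-!
# P352X, row IB: the limits of the single faces (helper83)
-/

set_option linter.all false

open MeasureTheory Filter Topology Set
open scoped SchwartzMap ComplexConjugate ContDiff Real

namespace Vale.Agent.P352X.Ib

open Vale.Agent.P352 Vale.Agent.P352.GF Vale.Agent.P352.BW Vale.Agent.P352.H246
open Vale.Agent.P352.H496 Vale.Agent.P352.H755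
open UniformSpace (Completion)
open Complex (I exp)

noncomputable section

variable {D : Type*} [NormedAddCommGroup D] [InnerProductSpace ℂ D] [GrD D] {c : CtxZ D}
  {g g' : P3 → ℝ} {χ φ φ' θ : ℝ → ℝ} {σ σ' : ℝ} {ell : (V → ℂ) → Completion D} {c0 : ℝ}
  {cc : (ℝ → ℝ) → (ℝ → ℝ) → ℂ} {dd : (ℝ → ℝ) → ℝ} {γ γ' : P3 → ℂ}

variable (h : EllZ c ell c0)
include h

lemma lim_tZ (hg : Tst g) (hχ : Tst χ) :
    Tendsto (fun p : ℝ × ℝ => c.Th (pr g (tm (dil p.1 χ)))) LL (𝓝 0) := by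
  obtain ⟨C, -, hC⟩ := th_tdilZ h hg hχ
  exact to0 ((ev_LL 0).mono fun p k => hC _ (k.1.trans_le k.2.1))

lemma lim_taZ (hσ : σ = 1 ∨ σ = -1) (hθ : Bump θ) (hg : Tst g) :
    Tendsto (fun p => c.Th (pr g (tm (pa σ θ p)))) LL (𝓝 0) := by
  have t := sd_ch hσ hθ
  obtain ⟨C, -, hC⟩ := th_tdilZ h hg t.1
  refine (plat_lim (ThLZ c g ∘L mT) hσ hθ (C := C) fun s hs => ?_).congr'
    ((ev_sd hσ hθ t).mono fun p k => ?_)
  · rw [ContinuousLinearMap.comp_apply, mT_S1 (t.dil hs).1, ThL_S1Z hg (tst_tm (t.dil hs).1)]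
    exact hC s hs
  · simp only [ContinuousLinearMap.comp_apply, mT_S1 k.1.1, ThL_S1Z hg (tst_tm k.1.1)]

lemma lim_dZ (hg : Tst g) (hχ : Tst χ) : Tendsto (fun p : ℝ × ℝ =>
    c.Th (pr g (dil p.1 χ)) - Tht ell (ft3 (cx g)) (dil p.1 χ)) LL (𝓝 0) := by
  obtain ⟨C, -, hC⟩ := dt_dilZ h hg hχ
  exact to0 ((ev_LL 0).mono fun p k => hC _ (k.1.trans_le k.2.1))

lemma lim_daZ (hσ : σ = 1 ∨ σ = -1) (hθ : Bump θ) (hg : Tst g) : Tendsto (fun p =>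
    c.Th (pr g (pa σ θ p)) - Tht ell (ft3 (cx g)) (pa σ θ p)) LL (𝓝 0) := by
  have t := sd_ch hσ hθ
  obtain ⟨C, -, hC⟩ := dt_dilZ h hg t.1
  refine (plat_lim (ThLZ c g - TtLZ h (mem_ft3 hg)) hσ hθ (C := C) fun s hs => ?_).congr'
    ((ev_sd hσ hθ t).mono fun p k => ?_)
  · rw [ContinuousLinearMap.sub_apply, ThL_S1Z hg (t.dil hs).1, TtL_S1Z h _ (t.dil hs).1]
    exact hC s hs
  · simp only [ContinuousLinearMap.sub_apply, ThL_S1Z hg k.1.1, TtL_S1Z h _ k.1.1]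

variable (t : T2Z c)
include t

lemma lim_RmZ (hσ : σ = 1 ∨ σ = -1) (hθ : Bump θ) (hχ : Sd χ) (hg : Tst g) (hg' : Tst g')
    (k : ∃ g0, Tst g0 ∧ (g = Dx (1, 0) g0 ∨ g' = Dx (1, 0) g0)) :
    Tendsto (fun p => RmZ c g (pa σ θ p) g' (dil p.1 χ)) LL (𝓝 0) := by
  obtain ⟨g0, h0, rfl | rfl⟩ := k
  · refine squeeze_zero_norm' ((ev_sd hσ hθ hχ).mono fun p k => ?_) (by
      simpa using tendsto_finset_sum Finset.univ fun i _ =>
        (lim_tZ h (tst_Dx (0, e2 i) hg') hχ.1).norm.mul (lim_taZ h hσ hθ (tst_Dx (0, e2 i) h0)).norm)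
    rw [← Rm_conjZ t hg' k.2 hg k.1, RCLike.norm_conj]
    simpa using Rm_leZ t hg' k.2.1 h0 k.1
  · refine squeeze_zero_norm' ((ev_sd hσ hθ hχ).mono fun p k => ?_) (by
      simpa using tendsto_finset_sum Finset.univ fun i _ =>
        (lim_taZ h hσ hθ (tst_Dx (0, e2 i) hg)).norm.mul (lim_tZ h (tst_Dx (0, e2 i) h0) hχ.1).norm)
    simpa using Rm_leZ t hg k.1.1 h0 k.2

variable (S : SchurZ c ell cc dd)
include S

lemma kt_paZ (hσ : σ = 1 ∨ σ = -1) (hθ : Bump θ) (hγ : MemLp γ 2 m3) : ∃ C : ℝ, ∀ᶠ p in LL,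
    ∀ w, Dm c.Sk w → ‖inner ℂ (Tht ell γ (pa σ θ p)) (gen c.Sk w)‖ ≤ C * ‖w‖ := by
  obtain ⟨R, -, hR⟩ := rad hθ.1
  have d := sd_ch hσ hθ
  refine ⟨2 * √(dd (ch σ θ) * ∫ k, ‖γ k‖ ^ 2 ∂m3), ?_⟩
  filter_upwards [ev_LL R, ev_sd hσ hθ d] with p a b w hw
  have := plat_le (innerSL ℂ (gen c.Sk w) ∘L TtLZ h hγ) hσ hθ hR a.1 a.2.1 a.2.2.1
    (C := √(dd (ch σ θ) * ∫ k, ‖γ k‖ ^ 2 ∂m3) * ‖w‖) fun s hs => by
      have s0 := a.1.trans_le hs.1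
      have e := S.nrm γ _ hγ (d.dil s0).d0
      rw [S.sdd _ _ d.d0 s0, mul_assoc, mul_comm] at e
      rw [ContinuousLinearMap.comp_apply, TtL_S1Z h _ (d.dil s0).1, innerSL_apply_apply,
        ← t.kt.ugk.symm hw.gn (S.dom γ _ hγ (d.dil s0).d0).gn, mul_right_comm,
        ← Real.sqrt_mul' _ s0.le, ← e, Real.sqrt_sq (norm_nonneg _), mul_comm]
      exact norm_inner_le_norm _ _
  rw [ContinuousLinearMap.comp_apply, TtL_S1Z h _ b.1.1, innerSL_apply_apply, norm_inner_symm,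
    ← mul_assoc] at this
  exact this.trans (mul_le_of_le_one_right (by positivity) (Real.sqrt_le_one.2 a.2.2.2))

lemma lim_ccZ (hσ : σ = 1 ∨ σ = -1) (hθ : Bump θ) (hχ : Sd χ) (hg : Tst g) (hg' : Tst g')
    (k : ∃ g0, Tst g0 ∧ (g = Dx (1, 0) g0 ∨ g' = Dx (1, 0) g0)) :
    Tendsto (fun p => c.PF (pr g (pa σ θ p)) (pr g' (dil p.1 χ)) - inner ℂ
      (Tht ell (ft3 (cx g)) (pa σ θ p)) (gen c.Sk (Tht ell (ft3 (cx g')) (dil p.1 χ)))) LL (𝓝 0) := by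
  obtain ⟨C, hC⟩ := kt_paZ h t S hσ hθ (mem_ft3 hg)
  obtain ⟨C', -, hC'⟩ := cellZ t.grp t.kd t.kt hg' hχ
  have h1 : Tendsto (fun p => inner ℂ (c.Th (pr g (pa σ θ p)) - Tht ell (ft3 (cx g)) (pa σ θ p))
      (gen c.Sk (c.Th (pr g' (dil p.1 χ))))) LL (𝓝 0) :=
    squeeze_zero_norm' ((ev_LL 0).mono fun p a => (norm_inner_le_norm _ _).trans
      (mul_le_mul_of_nonneg_left (hC' _ (a.1.trans_le a.2.1) a.2.2.2) (norm_nonneg _)))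
      (by simpa using (lim_daZ h hσ hθ hg).norm.mul_const C')
  have h2 : Tendsto (fun p => inner ℂ (Tht ell (ft3 (cx g)) (pa σ θ p)) (gen c.Sk
      (c.Th (pr g' (dil p.1 χ)) - Tht ell (ft3 (cx g')) (dil p.1 χ)))) LL (𝓝 0) :=
    squeeze_zero_norm' ((hC.and (ev_sd hσ hθ hχ)).mono fun p a => a.1 _
      ((dm_kZ t hg' a.2.2).sub (S.dom _ _ (mem_ft3 hg') a.2.2.d0)))
      (by simpa using (lim_dZ h hg' hχ.1).norm.const_mul C)
  have h3 := ((lim_RmZ h t hσ hθ hχ hg hg' k).add h1).add h2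
  rw [add_zero, add_zero] at h3
  refine h3.congr' ((ev_sd hσ hθ hχ).mono fun p a => ?_)
  simp only [RmZ, gen_sub (dm_kZ t hg' a.2) (S.dom _ _ (mem_ft3 hg') a.2.d0), inner_sub_left,
    inner_sub_right]
  ring

lemma cc_paZ (hσ : σ = 1 ∨ σ = -1) (hθ : Bump θ) (hγ : MemLp γ 2 m3) (hγ' : MemLp γ' 2 m3) :
    ∀ᶠ p in LL, ∀ φ, D0 φ → inner ℂ (Tht ell γ' φ) (gen c.Sk (Tht ell γ (pa σ θ p))) =
      ∫ s in p.2..p.1, ((s⁻¹ : ℝ) : ℂ) *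
        inner ℂ (Tht ell γ' φ) (gen c.Sk (Tht ell γ (dil s (ch σ θ)))) := by
  obtain ⟨R, -, hR⟩ := rad hθ.1
  have d := sd_ch hσ hθ
  filter_upwards [ev_LL R, ev_sd hσ hθ d] with p a b φ hφ
  have e : ∀ ψ, Sd ψ → (innerSL ℂ (gen c.Sk (Tht ell γ' φ)) ∘L TtLZ h hγ) (S1 ψ) =
      inner ℂ (Tht ell γ' φ) (gen c.Sk (Tht ell γ ψ)) := fun ψ hψ => by
    rw [ContinuousLinearMap.comp_apply, TtL_S1Z h _ hψ.1, innerSL_apply_apply,
      ← t.kt.ugk.symm (S.dom _ _ hγ' hφ).gn (S.dom γ _ hγ hψ.d0).gn]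
  rw [← e _ b.1, plat _ hσ hθ hR a.1 a.2.1 a.2.2.1]
  exact intervalIntegral.integral_congr fun s hs => by
    simp only [e _ (d.dil ((lt_min a.1 (a.1.trans_le a.2.1)).trans_le hs.1)), smul_eq_mul]

/-- the plateau on the left -/
theorem faceLZ (hσ : σ = 1 ∨ σ = -1) (hθ : Bump θ) (hχ : Sd χ) (hg : Tst g) (hg' : Tst g')
    (k : ∃ g0, Tst g0 ∧ (g = Dx (1, 0) g0 ∨ g' = Dx (1, 0) g0)) :
    Tendsto (fun p => c.PF (pr g (pa σ θ p)) (pr g' (dil p.1 χ)) - (∫ s in p.2..p.1,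
      ((s⁻¹ : ℝ) : ℂ) * cc (dil (s / p.1) (ch σ θ)) χ) * II g g') LL (𝓝 0) := by
  have d := sd_ch hσ hθ
  refine (lim_ccZ h t S hσ hθ hχ hg hg' k).congr' ?_
  filter_upwards [cc_paZ h t S hσ hθ (mem_ft3 hg) (mem_ft3 hg'), ev_sd hσ hθ hχ, ev_LL 0]
    with p a b e
  have e0 := e.1.trans_le e.2.1
  rw [← sym_inner t.kt.ugk (S.dom _ _ (mem_ft3 hg') b.2.d0) (S.dom _ _ (mem_ft3 hg) b.1.d0),
    a _ b.2.d0, ← intervalIntegral.integral_mul_const, ← iconj]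
  congr 1
  refine intervalIntegral.integral_congr fun s hs => ?_
  have s0 := (lt_min e.1 e0).trans_le hs.1
  simp only [map_mul, Complex.conj_ofReal]
  rw [sym_inner t.kt.ugk (S.dom _ _ (mem_ft3 hg') b.2.d0) (S.dom _ _ (mem_ft3 hg) (d.dil s0).d0),
    S.form _ _ _ _ (mem_ft3 hg) (d.dil s0).d0 (mem_ft3 hg') b.2.d0,
    ← S.scc _ _ _ (d.dil (div_pos s0 e0)).d0 hχ.d0 e0, dil_dil, mul_div_cancel₀ _ e0.ne', mul_assoc,
    II]

/-- the plateau on the right -/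
theorem faceRZ (hσ : σ = 1 ∨ σ = -1) (hθ : Bump θ) (hχ : Sd χ) (hg : Tst g) (hg' : Tst g')
    (k : ∃ g0, Tst g0 ∧ (g = Dx (1, 0) g0 ∨ g' = Dx (1, 0) g0)) :
    Tendsto (fun p => c.PF (pr g' (dil p.1 χ)) (pr g (pa σ θ p)) - (∫ s in p.2..p.1,
      ((s⁻¹ : ℝ) : ℂ) * cc (dil (p.1 / s) χ) (ch σ θ)) * II g' g) LL (𝓝 0) := by
  have d := sd_ch hσ hθ
  have := (Complex.continuous_conj.tendsto' _ _ (map_zero _)).comp (lim_ccZ h t S hσ hθ hχ hg hg' k)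
  refine this.congr' ?_
  filter_upwards [cc_paZ h t S hσ hθ (mem_ft3 hg) (mem_ft3 hg'), ev_sd hσ hθ hχ, ev_LL 0]
    with p a b e
  have e0 := e.1.trans_le e.2.1
  rw [Function.comp, map_sub, PF_conjZ t hg b.1 hg' b.2,
    sym_inner t.kt.ugk (S.dom _ _ (mem_ft3 hg) b.1.d0) (S.dom _ _ (mem_ft3 hg') b.2.d0),
    a _ b.2.d0, ← intervalIntegral.integral_mul_const]
  congr 1
  refine intervalIntegral.integral_congr fun s hs => ?_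
  have s0 := (lt_min e.1 e0).trans_le hs.1
  rw [S.form _ _ _ _ (mem_ft3 hg') b.2.d0 (mem_ft3 hg) (d.dil s0).d0,
    ← S.scc _ _ _ (hχ.dil (div_pos e0 s0)).d0 d.d0 s0, dil_dil, mul_div_cancel₀ _ s0.ne', mul_assoc,
    II]

end

end Vale.Agent.P352X.Ib
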